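import Crest.Agent.N255.Ra.Cube
import Crest.Agent.N255.Gc.Defs

/-!
# Row 255 (helper10): the abstract mirror model

`Mir`: a coloured graph with a group `F` acting, and a tree of chambers.  `Cell` = cube of the Davis complex
(given by its canonical corner) times a cell of the tree.  `Cham` = the chamber cochain complexes.
-/

set_option autoImplicit false

noncomputable section

namespace Crest.Agent.N255.Ce

open Ra Finsupp

/-- a rooting of the tree -/
structure Rt {Nd Ed : Type} (src tgt : Ed → Nd) where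
  o : Nd
  ht : Nd → ℕ
  up : Ed → Nd
  dn : Ed → Nd
  ht_o : ht o = 0
  ud : ∀ e, (up e = src e ∧ dn e = tgt e) ∨ (up e = tgt e ∧ dn e = src e)
  lt : ∀ e, ht (dn e) < ht (up e)
  par : ∀ t, t ≠ o → ∃! e, up e = t

/-- mirror data; `sp t` = the generators whose mirror contains the node `t` -/
structure Mir (S K F Nd Ed : Type) [DecidableEq S] [Group F] [MulAction F Nd] [MulAction F Ed] where
  Γ : SimpleGraph S
  col : S → K
  col_ne : ∀ s t, Γ.Adj s t → col s ≠ col t
  ρ : F →* (Γ ≃g Γ)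
  col_ρ : ∀ f s, col (ρ f s) = col s
  src : Ed → Nd
  tgt : Ed → Nd
  src_smul : ∀ (f : F) e, src (f • e) = f • src e
  tgt_smul : ∀ (f : F) e, tgt (f • e) = f • tgt e
  ty : Nd → Prop
  ty_smul : ∀ (f : F) t, ty (f • t) ↔ ty t
  ty_src : ∀ e, ¬ty (src e)
  ty_tgt : ∀ e, ty (tgt e)
  free : ∀ (f : F) (t : Nd), f • t = t → f = 1
  finN : ∃ A : Set Nd, A.Finite ∧ ∀ t, ∃ f : F, f • t ∈ A
  finE : ∃ A : Set Ed, A.Finite ∧ ∀ e, ∃ f : F, f • e ∈ A
  sp : Nd → Finset S
  sp_smul : ∀ (f : F) t, sp (f • t) = (sp t).image (ρ f)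
  root : ∀ τ : Finset S, Γ.IsClique (τ : Set S) →
    ∃ R : Rt src tgt, ∀ s ∈ τ, s ∈ sp R.o ∧ ∀ e, s ∈ sp (R.up e) → s ∈ sp (R.dn e)
  dimN : ∀ t (τ : Finset S), Γ.IsClique (τ : Set S) → τ ⊆ sp t → τ.card ≤ 4
  dimE : ∀ e (τ : Finset S), Γ.IsClique (τ : Set S) → τ ⊆ sp (src e) → τ ⊆ sp (tgt e) → τ.card ≤ 3

/-- dimension of a cell of the tree -/
def tdim {Nd Ed : Type} : Nd ⊕ Ed → ℕ
  | .inl _ => 0
  | .inr _ => 1

namespace Mir

variable {S K F Nd Ed : Type} [DecidableEq S] [Group F] [MulAction F Nd] [MulAction F Ed]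
  (M : Mir S K F Nd Ed)

/-- the generators whose mirror contains a cell of the tree -/
def sup : Nd ⊕ Ed → Finset S
  | .inl t => M.sp t
  | .inr e => M.sp (M.src e) ∩ M.sp (M.tgt e)

/-- the ends of a cell of the tree (`true` = target); a node is its own end -/
def nd (b : Bool) : Nd ⊕ Ed → Nd
  | .inl t => t
  | .inr e => if b then M.tgt e else M.src e

/-- the face relation of the tree -/
def tle (a c : Nd ⊕ Ed) : Prop := a = c ∨ ∃ b, a = .inl (M.nd b c)

theorem sup_nd (b : Bool) (c : Nd ⊕ Ed) : M.sup c ⊆ M.sp (M.nd b c) := by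
  rcases c with t | e
  · exact subset_rfl
  · cases b
    · exact Finset.inter_subset_left
    · exact Finset.inter_subset_right

theorem nd_smul (b : Bool) (f : F) (c : Nd ⊕ Ed) : M.nd b (f • c) = f • M.nd b c := by
  rcases c with t | e
  · rfl
  · cases b
    · exact M.src_smul f e
    · exact M.tgt_smul f e

theorem sup_smul (f : F) (c : Nd ⊕ Ed) : M.sup (f • c) = (M.sup c).image (M.ρ f) := by
  rcases c with t | e
  · exact M.sp_smul f t
  · show M.sp (M.src (f • e)) ∩ M.sp (M.tgt (f • e)) = _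
    rw [M.src_smul, M.tgt_smul, M.sp_smul, M.sp_smul, ← Finset.image_inter _ _ (M.ρ f).injective]
    rfl

theorem clique_image (f : F) {τ : Finset S} (h : M.Γ.IsClique (τ : Set S)) :
    M.Γ.IsClique (↑(τ.image (M.ρ f)) : Set S) := by
  rw [Finset.coe_image]
  rintro _ ⟨a, ha, rfl⟩ _ ⟨b, hb, rfl⟩ n
  exact (M.ρ f).map_adj_iff.2 (h ha hb fun e => n (e ▸ rfl))

variable [LinearOrder K]

/-- the colour parity character -/
def χ : W M.Γ →* Multiplicative (K → ZMod 2) :=
  lift (fun s => Multiplicative.ofAdd (Pi.single (M.col s) 1))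
    (fun s => by
      rw [← ofAdd_add, ← Pi.single_add, show (1 : ZMod 2) + 1 = 0 from rfl, Pi.single_zero]; rfl)
    fun _ _ _ => Commute.all _ _

/-- the parity of the colour `k` in `w` -/
def ch (w : W M.Γ) (k : K) : ZMod 2 := (M.χ w).toAdd k

@[simp] theorem ch_one (k : K) : M.ch 1 k = 0 := by simp [ch]

theorem ch_mul (w u : W M.Γ) (k : K) : M.ch (w * u) k = M.ch w k + M.ch u k := by simp [ch]

theorem ch_inv (w : W M.Γ) (k : K) : M.ch w⁻¹ k = M.ch w k := by simp [ch]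

theorem ch_gen (s : S) (k : K) : M.ch (gen M.Γ s) k = if k = M.col s then 1 else 0 := by
  simp [ch, χ, Pi.single_apply]

theorem ch_aut (f : F) (w : W M.Γ) (k : K) : M.ch (aut (M.ρ f) w) k = M.ch w k := by
  induction w using ind_right with
  | one => simp
  | mul w s ih => rw [map_mul, aut_gen, ch_mul, ch_mul, ih, ch_gen, ch_gen, M.col_ρ]

/-- the big group -/
abbrev G0 : Type := W M.Γ ⋊[autHom M.ρ] F

/-- the torsion free subgroup -/
def Gs : Subgroup M.G0 where
  carrier := {g | ∀ k, M.ch g.left k = 0}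
  one_mem' k := M.ch_one k
  mul_mem' {a b} ha hb k := by
    rw [SemidirectProduct.mul_left, ch_mul, autHom_apply, ch_aut, ha k, hb k, add_zero]
  inv_mem' {a} ha k := by
    rw [SemidirectProduct.inv_left, autHom_apply, ch_aut, ch_inv, ha k]

/-- **the group** -/
abbrev G : Type := M.Gs

/-- the cell `w W_τ × c`; `w` is the corner of the cube where the colours of `τ` are even -/
@[ext] structure Cell where
  w : W M.Γ
  τ : Finset S
  c : Nd ⊕ Ed
  cl : M.Γ.IsClique (τ : Set S)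
  sub : τ ⊆ M.sup c
  cor : ∀ s ∈ τ, M.ch w (M.col s) = 0

/-- the sign of `s` in `τ` -/
def ε (s : S) (τ : Finset S) : ℤ := (-1) ^ (τ.filter fun t => M.col t < M.col s).card

variable {M}

instance : SMul M.G M.Cell where
  smul g a :=
    { w := g.1.left * aut (M.ρ g.1.right) a.w
      τ := a.τ.image (M.ρ g.1.right)
      c := g.1.right • a.c
      cl := M.clique_image _ a.cl
      sub := by rw [sup_smul]; exact Finset.image_subset_image a.sub
      cor := fun s hs => by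
        obtain ⟨t, ht, rfl⟩ := Finset.mem_image.1 hs
        rw [ch_mul, g.2, ch_aut, M.col_ρ, a.cor t ht, add_zero] }

theorem smul_w (g : M.G) (a : M.Cell) : (g • a).w = g.1.left * aut (M.ρ g.1.right) a.w := rfl
theorem smul_τ (g : M.G) (a : M.Cell) : (g • a).τ = a.τ.image (M.ρ g.1.right) := rfl
theorem smul_c (g : M.G) (a : M.Cell) : (g • a).c = g.1.right • a.c := rfl

instance : MulAction M.G M.Cell where
  one_smul a := Cell.ext (by rw [smul_w, ← autHom_apply]; simp) (by rw [smul_τ]; ext; simp)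
    (by rw [smul_c]; simp)
  mul_smul g h a := Cell.ext
    (by simp only [smul_w, ← autHom_apply]; simp [mul_assoc])
    (by simp only [smul_τ, Finset.image_image]; simp [Function.comp_def])
    (by simp only [smul_c]; simp [mul_smul])

namespace Cell

/-- dimension -/
def dim (a : M.Cell) : ℕ := a.τ.card + tdim a.c

/-- the face through the corner -/
def lo (a : M.Cell) (s : S) : M.Cell :=
  ⟨a.w, a.τ.erase s, a.c, a.cl.subset (by simp), (Finset.erase_subset _ _).trans a.sub,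
    fun t ht => a.cor t (Finset.mem_of_mem_erase ht)⟩

/-- the opposite face -/
def hi (a : M.Cell) (s : S) : M.Cell :=
  ⟨if s ∈ a.τ then a.w * gen M.Γ s else a.w, a.τ.erase s, a.c, a.cl.subset (by simp),
    (Finset.erase_subset _ _).trans a.sub, fun t ht => by
      have h := Finset.mem_erase.1 ht
      split_ifs with hs
      · rw [ch_mul, a.cor t h.2, ch_gen, if_neg (M.col_ne _ _ (a.cl h.2 hs h.1)), add_zero]
      · exact a.cor t h.2⟩

/-- the faces in the tree direction -/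
def en (a : M.Cell) (b : Bool) : M.Cell :=
  ⟨a.w, a.τ, .inl (M.nd b a.c), a.cl, a.sub.trans (M.sup_nd b a.c), a.cor⟩

/-- the cellular boundary -/
def bd (a : M.Cell) : M.Cell →₀ ℤ :=
  ∑ s ∈ a.τ, M.ε s a.τ • (single (a.lo s) 1 - single (a.hi s) 1) +
    (-1 : ℤ) ^ a.τ.card • (single (a.en true) 1 - single (a.en false) 1)

/-- the cube of `a` contains `u` -/
def Has (u : W M.Γ) (a : M.Cell) : Prop := a.w⁻¹ * u ∈ WT M.Γ (a.τ : Set S)

/-- the face relation -/
def Le (a b : M.Cell) : Prop := a.τ ⊆ b.τ ∧ M.tle a.c b.c ∧ Has a.w b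

end Cell

variable (M)

/-- cells of the chamber complex with the mirrors in `σ` removed -/
def Val (σ : Finset S) (q : Finset S × (Nd ⊕ Ed)) : Prop :=
  M.Γ.IsClique (q.1 : Set S) ∧ q.1 ⊆ M.sup q.2 ∧ Disjoint q.1 σ

/-- the coboundary of the chamber complexes -/
def dD (φ : Finset S × (Nd ⊕ Ed) → ℤ) (q : Finset S × (Nd ⊕ Ed)) : ℤ :=
  ∑ s ∈ q.1, M.ε s q.1 * φ (q.1.erase s, q.2) +
    (-1) ^ q.1.card * (φ (q.1, .inl (M.nd true q.2)) - φ (q.1, .inl (M.nd false q.2)))

/-- **the chamber lemma**: `D σ` is exact for a nonempty clique `σ`, `D ∅` is `ℤ` in degree four -/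
structure Cham where
  or : Finset S × (Nd ⊕ Ed) → ℤ
  or_smul : ∀ (f : F) τ c, M.Val ∅ (τ, c) → or (τ.image (M.ρ f), f • c) = or (τ, c)
  or_dim : ∀ q, M.Val ∅ q → or q ≠ 0 → q.1.card + tdim q.2 = 4
  unit : ∃ q, M.Val ∅ q ∧ or q = 1
  stokes : ∀ q0, M.Val ∅ q0 → ∀ φ : Finset S × (Nd ⊕ Ed) →₀ ℤ, (∀ q, φ q ≠ 0 → M.Val ∅ q) →
    (∀ q, M.Val ∅ q → φ q = M.dD (single q0 (1 : ℤ)) q) → (φ.sum fun q k => or q * k) = 0
  ex : ∀ σ : Finset S, M.Γ.IsClique (σ : Set S) → ∀ φ : Finset S × (Nd ⊕ Ed) →₀ ℤ,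
    (∀ q, φ q ≠ 0 → M.Val σ q) → (∀ q, M.Val σ q → M.dD φ q = 0) →
    (σ = ∅ → (φ.sum fun q k => or q * k) = 0) →
    ∃ ψ : Finset S × (Nd ⊕ Ed) →₀ ℤ, (∀ q, ψ q ≠ 0 → M.Val σ q) ∧ ∀ q, M.Val σ q → M.dD ψ q = φ q

end Mir

end Crest.Agent.N255.Ce
end
private theorem rz_c8b879e85a : type_of% @_root_.Crest.Agent.N255.Ce.Mir.nd.eq_1 := @_root_.Crest.Agent.N255.Ce.Mir.nd.eq_1 -- L71
private theorem rz_43d4e952bd : type_of% @_root_.Crest.Agent.N255.Ce.tdim.eq_1 := @_root_.Crest.Agent.N255.Ce.tdim.eq_1 -- L56
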