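import Crest.Agent.N255.Ce.Ug
import Crest.Agent.N255.Ch.Abs
import Crest.Agent.N255.Fa.Q0
import Crest.Agent.N255.Ce.Ex
import Crest.Agent.N255.Fa.Hyp
import Crest.Agent.N255.Ce.Fr
import Crest.Agent.N255.Gs.Pa
import Crest.Agent.N255.Tp.ProMv

-- ▼ part N255/Fa/Ho
section

/-!
# Row 255 (helper16): uniform acyclicity, controlled homotopies, the abstract lemma (GL)
-/

set_option autoImplicit false

noncomputable section

namespace Crest.Agent.N255.Fa

open Ce Finsupp Gc Ch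
open scoped Classical

variable {G C : Type} [Group G] [MulAction G C]

/-- an invariant proper metric on the cells -/
structure Met (G : Type) {C : Type} [Group G] [MulAction G C] (d : C → C → ℕ) : Prop where
  refl : ∀ x, d x x = 0
  symm : ∀ x y, d x y = d y x
  tri : ∀ x y z, d x z ≤ d x y + d y z
  inv : ∀ (g : G) x y, d (g • x) (g • y) = d x y
  fin : ∀ x k, {y | d x y ≤ k}.Finite

/-- chains supported in a ball -/
def Bl (d : C → C → ℕ) (x : C) (k : ℕ) : Submodule ℤ (C →₀ ℤ) := Sp {y | d x y ≤ k}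





theorem map_lc {V V' : Type} [AddCommGroup V] [AddCommGroup V'] (T : V →ₗ[ℤ] V') (f : C → V)
    (b : C →₀ ℤ) : T (linearCombination ℤ f b) = linearCombination ℤ (fun y => T (f y)) b :=
  apply_linearCombination ℤ T f b



theorem lc_single (b : C →₀ ℤ) : linearCombination ℤ (fun y => single y (1 : ℤ)) b = b := by
  simp [linearCombination_apply]

variable (U : UG G C)

/-- the augmentation -/
def ag : (C →₀ ℤ) →ₗ[ℤ] ℤ := linearCombination ℤ fun a => if U.dim a = 0 then (1 : ℤ) else 0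

include U in
theorem unif {p : C → ℕ → Prop} (mono : ∀ x k k', k ≤ k' → p x k → p x k')
    (inv : ∀ (g : G) x k, p (g • x) k → p x k) (h : ∀ x, ∃ k, p x k) : ∃ k, ∀ x, p x k := by
  obtain ⟨s, hs, hc⟩ := U.fin
  choose f hf using h
  obtain ⟨k, hk⟩ := (hs.image f).bddAbove
  refine ⟨k, fun x => ?_⟩
  obtain ⟨g, hg⟩ := hc x
  exact inv g x k (mono _ _ _ (hk ⟨_, hg, rfl⟩) (hf _))




variable {d : C → C → ℕ} (hd : Met G d)
include hd






omit hd in
variable (d) in
/-- a chain map `r` moving the cell `x` by at most `m x` -/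
structure Fd (L : ℕ) (r : C → C →₀ ℤ) (m : C → ℕ) : Prop where
  ch : ∀ x, U.D (r x) = linearCombination ℤ r (U.bd x)
  au : ∀ x, ag U (r x) = ag U (single x 1)
  nr : ∀ x y, r x y ≠ 0 → d x y ≤ m x
  lip : ∀ y x, U.bd y x ≠ 0 → m x ≤ m y + L




end Crest.Agent.N255.Fa

end
end

-- ▼ part N255/Fa/Fo
section

/-!
# Row 255 (helper16): the fold onto a quadrant, on the group, on cells and on chains
-/

set_option autoImplicit false
set_option linter.unusedSectionVars false

noncomputable section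

namespace Crest.Agent.N255.Fa

open Ra Ce Ce.Mir Ce.Mir.Cell Finsupp
open scoped Classical

section group

variable {S : Type} {Γ : SimpleGraph S} {Z : Set S} {a s t : S} {v w : W Γ}

/-- elements without first letter in `Z` -/
def KZ (Γ : SimpleGraph S) (Z : Set S) : Set (W Γ) := {v | ∀ a ∈ Z, a ∉ Init v}

theorem one_KZ : (1 : W Γ) ∈ KZ Γ Z := fun a _ h => by simp [Init] at h

theorem KZ_down (hs : s ∉ In v) (h : v * gen Γ s ∈ KZ Γ Z) : v ∈ KZ Γ Z :=
  fun a ha k => h a ha (Init_up hs k)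

theorem exists_cross (hv : v ∈ KZ Γ Z) (h : v * gen Γ s ∉ KZ Γ Z) :
    ∃ a ∈ Z, v * gen Γ s = gen Γ a * v := by
  simp only [KZ, Set.mem_ofPred_eq, not_forall, not_not] at h
  obtain ⟨a, ha, h⟩ := h
  exact ⟨a, ha, cross v s (hv a ha) h⟩

theorem gen_mul_nmem (hv : v ∈ KZ Γ Z) (ha : a ∈ Z) : gen Γ a * v ∉ KZ Γ Z := fun h => h a ha <| by
  have := len_nmem' (hv a ha)
  change len _ < len _
  rw [gen_gen_mul]; omega

/-- goodness of a direction does not change along a commuting edge -/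
theorem good_iff (hv : v ∈ KZ Γ Z) (hs : v * gen Γ s ∈ KZ Γ Z) (h : s ≠ t → Γ.Adj s t) :
    v * gen Γ s * gen Γ t ∈ KZ Γ Z ↔ v * gen Γ t ∈ KZ Γ Z := by
  have key : ∀ v : W Γ, v ∈ KZ Γ Z → v * gen Γ s ∈ KZ Γ Z → v * gen Γ t ∉ KZ Γ Z →
      v * gen Γ s * gen Γ t ∉ KZ Γ Z := fun v h1 h2 h3 => by
    obtain ⟨a, ha, e⟩ := exists_cross h1 h3
    rw [mul_assoc, (gen_comm' h).eq, ← mul_assoc, e, mul_assoc]
    exact gen_mul_nmem h2 ha
  by_cases e : s = t
  · subst e; simp [hv, hs]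
  exact ⟨fun k => by_contra fun n => key v hv hs n k, fun k => by_contra fun n =>
    key _ hs (by simpa using hv) n (by simpa using k)⟩

/-- one step inside the quadrant -/
def st (Z : Set S) (s : S) (v : W Γ) : W Γ := if v * gen Γ s ∈ KZ Γ Z then v * gen Γ s else v

theorem st_mem (s : S) (hv : v ∈ KZ Γ Z) : st Z s v ∈ KZ Γ Z := by
  unfold st; split_ifs <;> assumption

theorem good_st (hv : v ∈ KZ Γ Z) (h : s ≠ t → Γ.Adj s t) :
    st Z s v * gen Γ t ∈ KZ Γ Z ↔ v * gen Γ t ∈ KZ Γ Z := by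
  unfold st
  split_ifs with k
  exacts [good_iff hv k h, Iff.rfl]

theorem st_st (s : S) (hv : v ∈ KZ Γ Z) : st Z s (st Z s v) = v := by
  by_cases k : v * gen Γ s ∈ KZ Γ Z <;> simp [st, k, hv]

theorem st_comm (hv : v ∈ KZ Γ Z) (h : Γ.Adj s t) : st Z s (st Z t v) = st Z t (st Z s v) := by
  rw [st, st.eq_1 Z t (st Z s v)]
  simp only [good_st hv fun _ => h, good_st hv fun _ => h.symm]
  by_cases k : v * gen Γ s ∈ KZ Γ Z <;> by_cases k' : v * gen Γ t ∈ KZ Γ Z <;>
    simp [st, k, k', mul_assoc, (gen_comm h).eq]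

/-- the action on the quadrant -/
def act (Γ : SimpleGraph S) (Z : Set S) : W Γ →* (Function.End (KZ Γ Z))ᵐᵒᵖ :=
  lift (fun s => MulOpposite.op fun v => ⟨st Z s v.1, st_mem s v.2⟩)
    (fun s => congrArg MulOpposite.op (funext fun v => Subtype.ext (st_st s v.2)))
    fun _ _ h => congrArg MulOpposite.op (funext fun v => Subtype.ext (st_comm v.2 h.symm))

/-- the fold -/
def fo (Z : Set S) (w : W Γ) : W Γ := ((act Γ Z w).unop ⟨1, one_KZ⟩).1

theorem fo_mem (Z : Set S) (w : W Γ) : fo Z w ∈ KZ Γ Z := Subtype.prop _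

theorem fo_one : fo Z (1 : W Γ) = 1 := by rw [fo, map_one]; rfl

theorem fo_mul (w : W Γ) (s : S) : fo Z (w * gen Γ s) = st Z s (fo Z w) := by
  have : (act Γ Z (gen Γ s)).unop = fun v => ⟨st Z s v.1, st_mem s v.2⟩ :=
    congrArg MulOpposite.unop (lift_gen _ _ _ s)
  rw [fo, map_mul, MulOpposite.unop_mul, this]; rfl

theorem fo_eq (h : w ∈ KZ Γ Z) : fo Z w = w := by
  induction w using ind_red with
  | one => exact fo_one
  | mul w s hs ih => rw [fo_mul, ih (KZ_down hs h), st, if_pos h]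


end group

variable {S K F Nd Ed : Type} [DecidableEq S] [Group F] [MulAction F Nd] [MulAction F Ed]
  [LinearOrder K] {M : Mir S K F Nd Ed} {Z : Set S} {x y z : M.Cell} {u v : W M.Γ} {s : S}






/-- the cell of the type of `x` at `v`, oriented from `v` -/
def og (v : W M.Γ) (x : M.Cell) : M.Cell →₀ ℤ :=
  (sg v * sg (M.cn v x.τ)) • single (M.mk' v x.τ x.c x.cl x.sub) 1











/-- the fold of a cell -/
def r0 (Z : Set S) (x : M.Cell) : M.Cell →₀ ℤ :=
  if ∀ s ∈ x.τ, fo Z x.w * gen M.Γ s ∈ KZ M.Γ Z then og (fo Z x.w) x else 0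

variable (M) in
/-- the fold on chains -/
def rL (Z : Set S) : (M.Cell →₀ ℤ) →ₗ[ℤ] (M.Cell →₀ ℤ) := linearCombination ℤ (r0 Z)

@[simp] theorem rL_one (x : M.Cell) : rL M Z (single x 1) = r0 Z x := by simp [rL]






end Crest.Agent.N255.Fa

end
end

-- ▼ part N255/Fa/Hf
section

/-!
# Row 255 (helper38): metric properties of the fold
-/

set_option autoImplicit false
set_option linter.unusedSectionVars false

noncomputable section

namespace Crest.Agent.N255.Fa

open Ra Ce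

variable {S K F Nd Ed : Type} [DecidableEq S] [Group F] [MulAction F Nd] [MulAction F Ed]
  {M : Ce.Mir S K F Nd Ed} {x y z : Vt M} {Z Z' : Set S} {a b s : S}


theorem fo_left {Γ : SimpleGraph S} (ha : a ∈ Z) (w : W Γ) : fo Z (gen Γ a * w) = fo Z w := by
  induction w using ind_right with
  | one =>
    rw [mul_one, ← one_mul (gen Γ a), fo_mul, fo_one, st, if_neg]
    simpa using gen_mul_nmem (one_KZ (Γ := Γ)) ha
  | mul w s ih => rw [← mul_assoc, fo_mul, fo_mul, ih]


theorem Init_adj {Γ : SimpleGraph S} (h : Γ.Adj a b) (w : W Γ) : b ∈ Init (gen Γ a * w) ↔ b ∈ Init w := by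
  rw [Init_eq, Init_eq, mul_inv_rev, gen_inv, mem_In_mul_adj h]

/-- the fold on vertices -/
def fv (Z : Set S) (x : Vt M) : Vt M := (fo Z x.1, x.2)

theorem fv_mem (Z : Set S) (x : Vt M) : fv Z x ∈ KV M Z := fo_mem Z x.1

theorem fv_eq (h : x ∈ KV M Z) : fv Z x = x := Prod.ext (fo_eq h) rfl



theorem ed_fv (Z : Set S) {c : S ⊕ Ed} (h : ed M x c y) : fv Z y = fv Z x ∨ ed M (fv Z x) c (fv Z y) := by
  rcases c with s | e
  · obtain ⟨h, rfl⟩ := h
    simp only [fv, fo_mul, st]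
    split_ifs
    · exact .inr ⟨h, rfl⟩
    · exact .inl rfl
  · exact .inr ⟨congrArg (fo Z) h.1, h.2⟩

/-- the fold is `1`-Lipschitz -/
theorem dl_fv (Z : Set S) (x y : Vt M) : dl M (fv Z x) (fv Z y) ≤ dl M x y := by
  generalize e : dl M x y = k
  induction k generalizing y with
  | zero => rw [eq_of_dl e, dl_self']
  | succ k ih =>
    obtain ⟨c, z, h1, h2⟩ := dl_step e
    have := ih z h2
    rcases ed_fv Z h1 with h | h
    · rw [← h]; omega
    · have := dl_tri' (fv Z x) (fv Z z) (fv Z y)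
      have := dl_ed h
      have := dl_comm' (fv Z z) (fv Z y)
      omega

theorem dl_fv_le (h : z ∈ KV M Z) (x : Vt M) : dl M z (fv Z x) ≤ dl M z x := by
  simpa only [fv_eq h] using dl_fv Z z x

theorem dl_fv_self (Z : Set S) (x : Vt M) : dl M x (fv Z x) ≤ 2 * ds M Z x := by
  obtain ⟨z, hz, e⟩ := exists_dl Z x
  have := dl_tri' x z (fv Z x)
  have := dl_fv_le hz x
  have := dl_comm' x z
  omega

theorem ds_fv_le (h : Z ⊆ Z') (x : Vt M) : ds M Z' (fv Z x) ≤ ds M Z' x := by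
  obtain ⟨z, hz, e⟩ := exists_dl Z' x
  exact (ds_le_dl hz _).trans ((dl_fv_le (KV_anti h hz) x).trans e.le)

theorem rad_fv (Z : Set S) (x : Vt M) : rad M (fv Z x) ≤ rad M x := ds_fv_le (Set.subset_univ Z) x

theorem ds_fv (Z : Set S) (x : Vt M) : ds M Z (fv Z x) = 0 := ds_eq_zero.2 (fv_mem Z x)

theorem ds_gen (h : ∀ b ∈ Z', M.Γ.Adj a b) (x : Vt M) : ds M Z' (gen M.Γ a * x.1, x.2) = ds M Z' x := by
  rw [← inl_smul]
  exact ds_smul _ (fun x => forall₂_congr fun b hb => by rw [inl_smul, Init_adj (h b hb)]) x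

/-- the fold does not change the depth behind the other walls -/
theorem ds_fv_of (hd : Disjoint Z Z') (h : Z' ⊆ Init x.1) :
    ds M Z' (fv Z x) = ds M Z' x ∧ Z' ⊆ Init (fv Z x).1 := by
  generalize e : len x.1 = k
  induction k using Nat.strong_induction_on generalizing x with
  | _ k ih =>
  by_cases c : x ∈ KV M Z
  · rw [fv_eq c]; exact ⟨rfl, h⟩
  simp only [KV, Set.mem_ofPred_eq, not_forall, not_not] at c
  obtain ⟨a, ha, c⟩ := c
  have j : ∀ b ∈ Z', M.Γ.Adj a b := fun b hb =>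
    Init_clique _ c (h hb) fun e => Set.disjoint_left.1 hd ha (e ▸ hb)
  have := ih (len (gen M.Γ a * x.1)) (by have := len_mem' c; omega) (x := (gen M.Γ a * x.1, x.2))
    (fun b hb => (Init_adj (j b hb) _).2 (h hb)) rfl
  rwa [ds_gen j, show fv Z ((gen M.Γ a * x.1, x.2) : Vt M) = fv Z x from Prod.ext (fo_left ha _) rfl] at this

theorem n_fv (hb : b ∉ Z) (h : 0 < n M b x) : n M b (fv Z x) = n M b x :=
  (ds_fv_of (Set.disjoint_singleton_right.2 hb) (Set.singleton_subset_iff.2 (n_pos.1 h))).1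

theorem n_le_fv (hb : b ∉ Z) (x : Vt M) : n M b x ≤ n M b (fv Z x) := by
  rcases Nat.eq_zero_or_pos (n M b x) with e | e
  · omega
  · exact (n_fv hb e).ge



end Crest.Agent.N255.Fa
end
end

-- ▼ part N255/Fa/Gl
section

/-!
# Row 255 (helper16): (GL) pro-vanishing of compactly supported cohomology far from a quadrant
-/

set_option autoImplicit false
set_option linter.unusedSectionVars false

noncomputable section

namespace Crest.Agent.N255.Fa

open Ra Ce Ce.Mir Ce.Mir.Cell Finsupp Ch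

variable {S K F Nd Ed : Type} [DecidableEq S] [Group F] [MulAction F Nd] [MulAction F Ed]
  [LinearOrder K] {M : Mir S K F Nd Ed} {x y : M.Cell} {u v : Vt M}

/-- `v` is a vertex of the cell `x` -/
def Vc (v : Vt M) (x : M.Cell) : Prop := Has v.1 x ∧ M.tle (.inl v.2) x.c

/-- the base vertex of a cell -/
def pt (x : M.Cell) : Vt M := (x.w, M.nd true x.c)

theorem vc_pt (x : M.Cell) : Vc (pt x) x := ⟨has_self x, tle_nd _ _⟩

theorem Vc.mono (h : Vc v x) (k : x ≤ y) : Vc v y := ⟨h.1.mono k, h.2.trans k.2.1⟩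

theorem pt_smul (g : M.G) (x : M.Cell) : pt (g • x) = g.1 • pt x :=
  Prod.ext rfl (M.nd_smul _ _ _)

theorem Vc.smul (g : M.G) (h : Vc v x) : Vc (g.1 • v) (g • x) := ⟨h.1.smul g, h.2.smul g.1.right⟩

theorem dl_pr {σ : Finset S} (hσ : M.Γ.IsClique (σ : Set S)) (w : W M.Γ) {t : Nd}
    (h : σ ⊆ M.sp t) : dl M (w, t) (w * pr M.Γ σ, t) ≤ σ.card := by
  induction σ using Finset.induction_on with
  | empty => simp [dl_self']
  | insert s σ hs ih =>
    have := ih (hσ.subset (by simp)) ((Finset.subset_insert _ _).trans h)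
    have := dl_tri' (w, t) (w * pr M.Γ σ, t) (w * pr M.Γ σ * gen M.Γ s, t)
    have : dl M (w * pr M.Γ σ, t) (w * pr M.Γ σ * gen M.Γ s, t) = 1 :=
      dl_ed (b := .inl s) ⟨h (Finset.mem_insert_self _ _), rfl⟩
    rw [pr_insert hσ hs, ← mul_assoc, Finset.card_insert_of_notMem hs]
    omega

theorem dl_nd (w : W M.Γ) {t t' : Nd} {c : Nd ⊕ Ed} (h : M.tle (.inl t) c) (h' : M.tle (.inl t') c) :
    dl M (w, t) (w, t') ≤ tdim c := by
  rcases c with p | e
  · rw [tle_inl, Sum.inl.injEq] at h h'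
    rw [h, h', dl_self']
    exact Nat.zero_le _
  · simp only [tle_inr, reduceCtorEq, Sum.inl.injEq, false_or] at h h'
    rcases h with rfl | rfl <;> rcases h' with rfl | rfl
    · rw [dl_self']; exact Nat.zero_le _
    · exact le_of_eq (dl_ed (b := .inr e) ⟨rfl, .inl ⟨rfl, rfl⟩⟩)
    · exact le_of_eq (dl_ed (b := .inr e) ⟨rfl, .inr ⟨rfl, rfl⟩⟩)
    · rw [dl_self']; exact Nat.zero_le _

/-- the vertices of a cell are at distance at most four -/
theorem Vc.dl_le (h : Vc u x) (k : Vc v x) : dl M u v ≤ 4 := by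
  obtain ⟨σ, hσ, e⟩ := (mem_WT x.cl).1 (h.1.rel k.1)
  have h1 := dl_pr (x.cl.subset (Finset.coe_subset.2 hσ)) u.1 (hσ.trans (x.sub.trans h.2.sup))
  rw [← e, mul_inv_cancel_left] at h1
  have := dl_nd v.1 h.2 k.2
  have := dl_tri' u (v.1, u.2) v
  have := Finset.card_le_card hσ
  have := x.dim_le
  unfold Cell.dim at this
  change dl M u _ ≤ _ at h1
  change dl M _ v ≤ _ at *
  omega

variable [Finite K]









end Crest.Agent.N255.Fa

end
end

-- ▼ part N255/Gs/Pac
section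

/-!
# Row 255 (helper89): pro-acyclic systems of open sets of the manifold from the cells
-/

set_option autoImplicit false
open Set Finsupp
open scoped Pointwise

noncomputable section

namespace Crest.Agent.N255.Fa

open Gc Gs Ce Ch Tp Uc

variable {G C : Type} [Group G] [MulAction G C] {U : UG G C} {or : C → ℤ}
  {T : Type} [TopologicalSpace T] [MulAction G T] [ContinuousConstSMul G T] {K₀ : Set T}
  {κ J : Type} [Preorder κ]

/-- a system of subsets of the group which retreats from its bounded neighbourhoods -/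
structure Rtr (A : J → κ → Set G) : Prop where
  anti : ∀ j, Antitone (A j)
  nb : ∀ S : Set G, S.Finite → ∀ a, ∃ b, a ≤ b ∧ ∀ j, A j b * S ⊆ A j a

/-- the open set over a set of labels -/
def Op (K₀ : Set T) (A : Set G) : Set T := sat A (interior K₀)

theorem isOpen_Op (A : Set G) : IsOpen (Op K₀ A) := isOpen_sat A isOpen_interior

omit [ContinuousConstSMul G T] in
theorem Op_mono {A B : Set G} (h : A ⊆ B) : Op K₀ A ⊆ Op K₀ B := sat_mono h Subset.rfl

omit [ContinuousConstSMul G T] in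
theorem Op_sub (A : Set G) : Op K₀ A ⊆ sat A K₀ := sat_mono Subset.rfl interior_subset


variable {d : ℕ} (h : FD d G K₀)
include h

omit [ContinuousConstSMul G T] in
theorem sat_sub_Op {L : Set T} (A : Set G) : sat A L ⊆ Op K₀ (A * shs G K₀ L) := fun x hx => by
  obtain ⟨g, hg⟩ := h.cov x
  exact ⟨g, sat_sub_cor K₀ L A hx g (interior_subset hg), hg⟩

omit [ContinuousConstSMul G T] in
theorem Op_nonempty {A : Set G} (hA : A.Nonempty) : (Op K₀ A).Nonempty := by
  obtain ⟨a, ha⟩ := hA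
  obtain ⟨x⟩ := h.gm.pc.nonempty
  obtain ⟨g, hg⟩ := h.cov x
  exact ⟨_, smul_mem_sat ha hg⟩

omit [ContinuousConstSMul G T] in
/-- translates of any compact set give an interleaved system -/
theorem Rtr.sat_sub {A : J → κ → Set G} (r : Rtr A) {L : Set T} (hL : IsCompact L) (a : κ) :
    ∃ b, a ≤ b ∧ ∀ j, sat (A j b) L ⊆ Op K₀ (A j a) := by
  obtain ⟨b, h1, h2⟩ := r.nb _ (h.gm.shs_finite h.cpt hL) a
  exact ⟨b, h1, fun j => (sat_sub_Op h _).trans (Op_mono (h2 j))⟩

end Crest.Agent.N255.Fa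

namespace Crest.Agent.N255.Fa

open Gc Gs Ce Ch Tp Uc

variable {G C : Type} [Group G] [MulAction G C] {U : UG G C} {or : C → ℤ}
  {T : Type} [TopologicalSpace T] [MulAction G T] [ContinuousConstSMul G T] {K₀ : Set T}
  {κ J : Type} [Preorder κ]

/-- a pro-system of sets of cells with the compactly supported cohomology of Euclidean space -/
structure PQd (U : UG G C) (or : C → ℤ) (B : J → κ → Set C) : Prop where
  anti : ∀ j, Antitone (B j)
  cl : ∀ j a, Cl U.de (Sp (B j a))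
  pe : ∀ a, ∃ b, a ≤ b ∧ ∀ j, PEx U or (B j b) (B j a)
  top : ∀ j a, ∃ x ∈ B j a, or x = 1 ∨ or x = -1

theorem PQd.tw4 {B : J → κ → Set C} (p : PQd U or B) (a : κ) : ∃ s : ℕ → κ, s 0 = a ∧ Monotone s ∧
    ∀ j, Tw4 U or fun i => B j (s i) := by
  choose f h1 h2 using p.pe
  have m : Monotone fun i => f^[i] a := monotone_nat_of_le_succ fun i => by
    rw [Function.iterate_succ_apply']; exact h1 _
  exact ⟨fun i => f^[i] a, rfl, m, fun j => ⟨fun _ _ h => p.anti j (m h), fun i _ => by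
    simp only [Function.iterate_succ_apply']; exact h2 _ j, p.cl j _, p.top j _⟩⟩

/-- **transfer of pro-acyclic systems** -/
theorem pac_of_pqd [IsDirectedOrder κ] (q : Qd U or univ) (h : FD 4 G K₀) (L : Lab G U.X)
    (k : Type) [Field k] {A : J → κ → Set G} {B : J → κ → Set C} (r : Rtr A) (p : PQd U or B)
    (i1 : ∀ a, ∃ b, ∀ j n (x : U.X n), L.l n x ∈ A j b → x.1 ∈ B j a)
    (i2 : ∀ a, ∃ b, ∀ j n (x : U.X n), x.1 ∈ B j b → L.l n x ∈ A j a) :
    PAc k fun j a => Op K₀ (A j a) := by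
  obtain ⟨S, f1, -, h3⟩ := acy_of_pex q h L k
  refine ⟨fun j a => ?_, fun a => ?_⟩
  · obtain ⟨b, hb⟩ := i2 a
    obtain ⟨x, hx, -⟩ := p.top j b
    exact Op_nonempty h ⟨_, hb j _ ⟨x, rfl⟩ hx⟩
  · obtain ⟨a0, l0, e0⟩ := r.sat_sub h h.cpt a
    obtain ⟨a1, l1, e1⟩ := r.nb S f1 a0
    obtain ⟨b0, e2⟩ := i2 a1
    obtain ⟨s, rfl, -, e3⟩ := p.tw4 b0
    obtain ⟨b1, e4⟩ := i1 (s 4)
    obtain ⟨b2, l2, l3⟩ := exists_ge_ge a1 b1
    obtain ⟨b3, l4, e5⟩ := r.nb S f1 b2
    refine ⟨b3, l0.trans (l1.trans (l2.trans l4)), fun j => h3 _ (e3 j) (A j b3) (A j a1)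
      (fun n x hx => e4 j n x (r.anti j l3 (e5 j hx))) (e2 j) _ _ (isOpen_Op _) (Op_sub _)
      (isOpen_Op _) ((sat_mono ?_ Subset.rfl).trans (e0 j))⟩
    rw [union_eq_self_of_subset_left (r.anti j (l2.trans l4))]
    exact e1 j

end Crest.Agent.N255.Fa

end
end

-- ▼ part N255/Ce/Res

/-!
# Row 255 / 233 (helper16): restriction of the cellular complex to a subgroup of finite index
-/

set_option autoImplicit false
set_option linter.unusedSectionVars false

noncomputable section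

namespace Crest.Agent.N255

open Finsupp

/-- cocompactness passes to subgroups of finite index -/
theorem cocpt_res {G C : Type} [Group G] [MulAction G C] (H : Subgroup G) [H.FiniteIndex]
    (h : ∃ s : Set C, s.Finite ∧ ∀ x : C, ∃ g : G, g • x ∈ s) :
    ∃ s : Set C, s.Finite ∧ ∀ x : C, ∃ g : H, g • x ∈ s := by
  obtain ⟨s, hs, h⟩ := h
  refine ⟨⋃ q : G ⧸ H, (fun x => q.out⁻¹ • x) '' s, Set.finite_iUnion fun q => hs.image _, fun x => ?_⟩
  obtain ⟨g, hg⟩ := h x
  obtain ⟨u, hu⟩ := QuotientGroup.mk_out_eq_mul H g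
  refine ⟨u⁻¹, Set.mem_iUnion.2 ⟨(g : G ⧸ H), _, hg, ?_⟩⟩
  simp [hu, Subgroup.smul_def, mul_smul]

namespace Ce.UG

variable {G C : Type} [Group G] [MulAction G C] (U : UG G C) (H : Subgroup G) [H.FiniteIndex]

/-- the same complex with the smaller group -/
def res : UG H C where
  dim := U.dim
  bd := U.bd
  dim_smul g := U.dim_smul g.1
  dim_bd := U.dim_bd
  free g x h := Subtype.ext (U.free g.1 x h)
  fin := cocpt_res H U.fin
  eqv g := U.eqv g.1
  dd := U.dd
  aug := U.aug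
  ex := U.ex
  ne := U.ne


end Ce.UG

namespace Fa

open Ce Ce.Mir Ce.Mir.Cell Ra

section
variable {G C : Type} [Group G] [MulAction G C] {U : UG G C} (H : Subgroup G) [H.FiniteIndex]
  {or : C → ℤ}

theorem Qd.res {V : Set C} (q : Qd U or V) : Qd (U.res H) or V := ⟨q.1, q.2, q.3, q.4, q.5, q.6⟩


theorem Tw4.res {B : ℕ → Set C} (h : Tw4 U or B) : Tw4 (U.res H) or B := ⟨h.1, h.2, h.3, h.4⟩

theorem PQd.res {κ J : Type} [Preorder κ] {B : J → κ → Set C} (h : PQd U or B) :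
    PQd (U.res H) or B := ⟨h.1, h.2, h.3, h.4⟩

omit [H.FiniteIndex] in
theorem Met.res {d : C → C → ℕ} (h : Met G d) : Met H d :=
  ⟨h.1, h.2, h.3, fun g => h.4 g.1, h.5⟩

end

variable {S K F Nd Ed : Type} [DecidableEq S] [Group F] [MulAction F Nd] [MulAction F Ed]
  [LinearOrder K] [Finite K] {M : Mir S K F Nd Ed}

variable (M) in
/-- the core group inside `M.G` -/
def inF : F →* M.G :=
  (SemidirectProduct.inr : F →* M.G0).codRestrict M.Gs fun _ k => M.ch_one k


/-- the whole complex has the compactly supported cohomology of `ℝ⁴` -/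
theorem qd_univ (H : M.Cham) : Qd M.ug H.oc Set.univ where
  h4 := Cell.dim_le
  hd := H.oc_dim
  st φ := by
    rw [← lc_single φ, map_lc, map_lc]
    exact lc_eq_zero fun x _ => H.oc_de M.ug.de_apply x
  cl _ _ := Ch.mem_Sp.2 fun _ _ => trivial
  ex b _ h k := (H.coex M.ug.de_apply M.ug.de_de b h k).imp fun _ e =>
    ⟨Ch.mem_Sp.2 fun _ _ => trivial, e⟩
  top := by
    obtain ⟨a, ha⟩ := H.oc_unit
    refine ⟨single a 1, Ch.mem_Sp.2 fun _ _ => trivial, ?_, by simp [ha]⟩
    ext y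
    rw [M.ug.de_single]
    by_contra e
    have h1 : a.dim + 1 = y.dim := Cell.dim_bd e
    have := H.oc_dim a (by omega)
    have := y.dim_le
    omega

theorem vt_free (g : M.G) (v : Vt M) (h : g.1 • v = v) : g = 1 :=
  Cell.free g (M.mk' v.1 ∅ (.inl v.2) (by simp) (by simp)) (((has_mk' _ _ _ _ _).smul g).ext
    (by rw [show g.1.left * aut (M.ρ g.1.right) v.1 = v.1 from congrArg Prod.fst h]
        exact has_mk' _ _ _ _ _)
    (by simp [smul_τ, mk']) (congrArg Sum.inl (congrArg Prod.snd h)))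

variable (G' : Subgroup M.G)

theorem orb_inj (o : Vt M) : Function.Injective fun g : G' => g.1.1 • o := fun g g' h =>
  Subtype.ext (inv_mul_eq_one.1 (vt_free (g.1⁻¹ * g'.1) o (by
    rw [Subgroup.coe_mul, mul_smul, show g'.1.1 • o = g.1.1 • o from h.symm, Subgroup.coe_inv,
      inv_smul_smul])))

theorem orb_fin (o : Vt M) {N : Set (Vt M)} (h : N.Finite) : {g : G' | g.1.1 • o ∈ N}.Finite :=
  h.preimage (orb_inj G' o).injOn

/-- finite sets of group elements move the orbit map by a bounded amount -/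
theorem orb_lip (o : Vt M) {A : Set G'} (hA : A.Finite) :
    ∃ d, ∀ g : G', ∀ s ∈ A, dl M (g.1.1 • o) ((g * s).1.1 • o) ≤ d := by
  obtain ⟨d, hd⟩ := (hA.image fun s : G' => dl M o (s.1.1 • o)).bddAbove
  exact ⟨d, fun g s hs => by
    rw [Subgroup.coe_mul, Subgroup.coe_mul, mul_smul, dl_smul]; exact hd ⟨s, hs, rfl⟩⟩

theorem orb_near (o : Vt M) (d : ℕ) : ∃ A : Set G', A.Finite ∧
    ∀ g g' : G', dl M (g.1.1 • o) (g'.1.1 • o) ≤ d → g⁻¹ * g' ∈ A :=
  ⟨_, orb_fin G' o (ball_fin o d), fun g g' h => by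
    rw [← dl_smul g.1.1⁻¹, inv_smul_smul, ← mul_smul] at h; exact h⟩

variable [G'.FiniteIndex]

/-- the orbit is dense -/
theorem orb_dense (o : Vt M) : ∃ d, ∀ v : Vt M, ∃ g : G', dl M (g.1.1 • o) v ≤ d := by
  obtain ⟨s, hs, h⟩ := (M.ug.res G').fin
  obtain ⟨d, hd⟩ := (hs.image fun x => dl M o (pt x)).bddAbove
  refine ⟨d, fun v => ?_⟩
  obtain ⟨g, hg⟩ := h (M.mk' v.1 ∅ (.inl v.2) (by simp) (by simp))
  have : dl M o (pt (g.1 • _)) ≤ d := hd ⟨_, hg, rfl⟩
  refine ⟨g⁻¹, ?_⟩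
  rw [← dl_smul g.1.1, Subgroup.coe_inv, Subgroup.coe_inv, smul_inv_smul]
  rw [pt_smul] at this
  convert this
  simp [pt, mk', cn, Mir.nd]

/-- equivariant labels of the cells are uniformly close to the cells -/
theorem lab_near (o : Vt M) (L : Gs.Lab G' (M.ug.res G').X) :
    ∃ d, ∀ n (x : (M.ug.res G').X n) (v : Vt M), Vc v x.1 → dl M ((L.l n x).1.1 • o) v ≤ d := by
  obtain ⟨d, hd⟩ := unif (M.ug.res G') (p := fun x d => dl M ((L.l _ ⟨x, rfl⟩).1.1 • o) (pt x) ≤ d)
    (fun _ _ _ h k => k.trans h) (fun g x d k => by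
      have e : ∀ n (h : (M.ug.res G').dim (g • x) = n) (h' : (M.ug.res G').dim x = n),
          L.l n ⟨g • x, h⟩ = g * L.l n ⟨x, h'⟩ := fun n h h' => L.smul n g ⟨x, h'⟩
      have e' : ∀ n m (h : (M.ug.res G').dim x = n) (h' : (M.ug.res G').dim x = m),
          L.l n ⟨x, h⟩ = L.l m ⟨x, h'⟩ := fun n m h h' => by subst h h'; rfl
      rw [e _ rfl ((M.ug.res G').dim_smul g x).symm, e' _ _ _ rfl, Subgroup.smul_def, pt_smul,
        Subgroup.coe_mul, Subgroup.coe_mul, mul_smul, dl_smul] at k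
      exact k) fun x => ⟨_, le_rfl⟩
  refine ⟨d + 4, fun n ⟨x, hx⟩ v h => ?_⟩
  subst hx
  exact (dl_tri' _ (pt x) _).trans (add_le_add (hd x) ((vc_pt x).dl_le h))

end Fa

end Crest.Agent.N255

end
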